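import Vale.Agent.P339.R2.H620.AN

/-!
P339: lists of affine functions of the tables of the second kind.
-/

namespace Vale.Agent.P339.R2.H206

open Finset Vale.Agent.Lib.PCP Vale.Agent.Lib.PCP.HA Vale.Agent.P339.H283 Vale.Agent.P339.H937
  Vale.Agent.P339.R2.H375

variable {l k nA : ℕ}

/-- The list for one side. -/
def IsL1 (R : (Fin k × Fin nA → K l) → K l × ZMod 2) (j : Fin k) (w : Fin nA → ZMod 2)
    (θ0 θ1 : K l) (β : ZMod 2) (H : Finset ((Fin k × Fin nA → ZMod 2) × K l)) (c : ℝ) : Prop :=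
  ((H.card : ℝ) * c ≤ 1) ∧
  (∀ h ∈ H, ∀ h' ∈ H, h ≠ h' → h.1 ≠ h'.1 ∨ ¬ InG j w θ0 θ1 β h.1 (h.2 + h'.2)) ∧
  ∀ t g, agr (rs R j w θ0 θ1 H β) (fun M => (R M).1) t g ≤ c

lemma rs_nonneg (R : (Fin k × Fin nA → K l) → K l × ZMod 2) (j : Fin k) (w : Fin nA → ZMod 2)
    (θ0 θ1 : K l) (H : Finset ((Fin k × Fin nA → ZMod 2) × K l)) (β : ZMod 2)
    (M : Fin k × Fin nA → K l) : 0 ≤ rs R j w θ0 θ1 H β M := ind_nonneg _

lemma rs_le_one (R : (Fin k × Fin nA → K l) → K l × ZMod 2) (j : Fin k) (w : Fin nA → ZMod 2)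
    (θ0 θ1 : K l) (H : Finset ((Fin k × Fin nA → ZMod 2) × K l)) (β : ZMod 2)
    (M : Fin k × Fin nA → K l) : rs R j w θ0 θ1 H β M ≤ 1 := ind_le_one _

theorem exists_IsL1 (R : (Fin k × Fin nA → K l) → K l × ZMod 2) (j : Fin k)
    (w : Fin nA → ZMod 2) (θ0 θ1 : K l) (β : ZMod 2) {c : ℝ} (hc : 0 < c) :
    ∃ H : Finset ((Fin k × Fin nA → ZMod 2) × K l), IsL1 R j w θ0 θ1 β H c := by
  by_contra hcon
  have key : ∀ n : ℕ, ∃ H : Finset ((Fin k × Fin nA → ZMod 2) × K l), H.card = n ∧
      (n : ℝ) * c ≤ 1 - avg (rs R j w θ0 θ1 H β) ∧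
      (∀ h ∈ H, ∀ h' ∈ H, h ≠ h' → h.1 ≠ h'.1 ∨ ¬ InG j w θ0 θ1 β h.1 (h.2 + h'.2)) := by
    intro n
    induction n with
    | zero =>
      refine ⟨∅, rfl, ?_, fun h hh => absurd hh (Finset.notMem_empty h)⟩
      have : avg (rs R j w θ0 θ1 (∅ : Finset ((Fin k × Fin nA → ZMod 2) × K l)) β) ≤ 1 :=
        avg_le_of_le zero_le_one fun M => rs_le_one _ _ _ _ _ _ _ _
      simp only [Nat.cast_zero, zero_mul]
      linarith
    | succ n ih =>
      obtain ⟨H, hn, h1, h2⟩ := ih
      have h3 : (H.card : ℝ) * c ≤ 1 := by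
        rw [hn]
        have : 0 ≤ avg (rs R j w θ0 θ1 H β) := avg_nonneg fun M => rs_nonneg _ _ _ _ _ _ _ _
        linarith
      obtain ⟨t, g, htg⟩ : ∃ t g, c < agr (rs R j w θ0 θ1 H β) (fun M => (R M).1) t g := by
        by_contra hno
        push Not at hno
        exact hcon ⟨H, h3, h2, hno⟩
      have hsep : ∀ h ∈ H, h.1 ≠ t ∨ ¬ InG j w θ0 θ1 β h.1 (h.2 + g) := by
        intro h hh
        by_contra hno
        push Not at hno
        obtain ⟨ht, hg⟩ := hno
        have h5 : agr (rs R j w θ0 θ1 H β) (fun M => (R M).1) t g = 0 := by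
          unfold agr
          rw [← avg_zero' (X := Fin k × Fin nA → K l)]
          refine avg_congr fun M => ?_
          by_cases hM : (R M).1 = evl t M + g
          · have : rs R j w θ0 θ1 H β M = 0 := by
              unfold rs
              refine ind_false fun hr => hr.2 h hh ⟨hr.1, ?_⟩
              have e1 : (R M).1 + aff h M = h.2 + g := by
                unfold aff
                rw [hM, ht]
                have e2 : evl t M + g + (evl t M + h.2) = (evl t M + evl t M) + (h.2 + g) := by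
                  abel
                rw [e2, K_add_self, zero_add]
              rw [e1]
              exact hg
            rw [this, zero_mul]
          · rw [ind_false hM, mul_zero]
        linarith
      have h4 : (t, g) ∉ H := by
        intro hmem
        rcases hsep _ hmem with h | h
        · exact h rfl
        · exact h (Or.inl (K_add_self _))
      have h5 : ∀ M, rs R j w θ0 θ1 (insert (t, g) H) β M ≤ rs R j w θ0 θ1 H β M -
          rs R j w θ0 θ1 H β M * ind ((R M).1 = evl t M + g) := by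
        intro M
        by_cases hM : (R M).1 = evl t M + g
        · rw [ind_true hM, mul_one, sub_self]
          refine le_of_eq ?_
          unfold rs
          refine ind_false fun hr => hr.2 (t, g) (Finset.mem_insert_self _ _) ⟨hr.1, Or.inl ?_⟩
          unfold aff
          rw [hM]
          exact K_add_self _
        · rw [ind_false hM, mul_zero, sub_zero]
          unfold rs
          exact ind_mono fun hr => ⟨hr.1, fun h hh => hr.2 h (Finset.mem_insert_of_mem hh)⟩
      refine ⟨insert (t, g) H, by rw [Finset.card_insert_of_notMem h4, hn], ?_, ?_⟩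
      · have h6 : avg (rs R j w θ0 θ1 (insert (t, g) H) β) ≤ avg (rs R j w θ0 θ1 H β) -
            agr (rs R j w θ0 θ1 H β) (fun M => (R M).1) t g := by
          refine (avg_mono h5).trans (le_of_eq ?_)
          rw [avg_sub]
          rfl
        push_cast
        linarith
      · intro h hh h' hh' hne
        rcases Finset.mem_insert.1 hh with rfl | hh
        · rcases Finset.mem_insert.1 hh' with rfl | hh'
          · exact absurd rfl hne
          · by_cases ht : t = h'.1
            · right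
              intro hg
              rcases hsep h' hh' with h | h
              · exact h ht.symm
              · refine h ?_
                rw [← ht, add_comm]
                exact hg
            · exact Or.inl ht
        · rcases Finset.mem_insert.1 hh' with rfl | hh'
          · exact hsep h hh
          · exact h2 h hh h' hh' hne
  obtain ⟨n, hn⟩ := exists_nat_gt (1 / c)
  obtain ⟨H, _, h1, _⟩ := key n
  have h2 : 0 ≤ avg (rs R j w θ0 θ1 H β) := avg_nonneg fun M => rs_nonneg _ _ _ _ _ _ _ _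
  rw [div_lt_iff₀ hc] at hn
  linarith

/-- The lists exist. -/
theorem exists_IsL (R : (Fin k × Fin nA → K l) → K l × ZMod 2) (j : Fin k)
    (w : Fin nA → ZMod 2) (θ0 θ1 : K l) {c : ℝ} (hc : 0 < c) :
    ∃ H : ZMod 2 → Finset ((Fin k × Fin nA → ZMod 2) × K l), IsL R j w θ0 θ1 H c := by
  choose H hH using fun β => exists_IsL1 R j w θ0 θ1 β hc
  exact ⟨H, fun β => (hH β).1, fun β => (hH β).2.1, fun β => (hH β).2.2⟩

/-- One side, one point. -/
lemma point_mass_le (R : (Fin k × Fin nA → K l) → K l × ZMod 2) (j : Fin k)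
    (w : Fin nA → ZMod 2) (θ0 θ1 : K l) (β : ZMod 2)
    (H : Finset ((Fin k × Fin nA → ZMod 2) × K l)) (M : Fin k × Fin nA → K l) :
    rs R j w θ0 θ1 H β M + ∑ h ∈ H, ind (Cov R j w θ0 θ1 β h M) ≤ ind ((R M).2 = β) +
      ∑ h ∈ H, ∑ h' ∈ H.erase h, ind (Cov R j w θ0 θ1 β h M ∧ Cov R j w θ0 θ1 β h' M) := by
  classical
  have hs : ∀ T : Finset ((Fin k × Fin nA → ZMod 2) × K l),
      ∑ h ∈ T, ind (Cov R j w θ0 θ1 β h M) =
        ((T.filter fun h => Cov R j w θ0 θ1 β h M).card : ℝ) := by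
    intro T
    unfold ind
    rw [Finset.sum_boole]
  by_cases hex : ∃ h ∈ H, Cov R j w θ0 θ1 β h M
  · obtain ⟨h0, hh0, hc0⟩ := hex
    have h1 : rs R j w θ0 θ1 H β M = 0 := by
      unfold rs
      exact ind_false fun hr => hr.2 h0 hh0 hc0
    have h2 : ind ((R M).2 = β) = 1 := ind_true hc0.1
    rw [h1, h2, zero_add]
    -- all the other covering functions meet h0
    have h3 : ∑ h ∈ H, ind (Cov R j w θ0 θ1 β h M) = 1 +
        ∑ h' ∈ H.erase h0, ind (Cov R j w θ0 θ1 β h0 M ∧ Cov R j w θ0 θ1 β h' M) := by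
      rw [← Finset.add_sum_erase H _ hh0, ind_true hc0]
      congr 1
      refine Finset.sum_congr rfl fun h' _ => ?_
      exact ind_congr ⟨fun h => ⟨hc0, h⟩, fun h => h.2⟩
    rw [h3]
    refine add_le_add le_rfl ?_
    exact Finset.single_le_sum (f := fun h => ∑ h' ∈ H.erase h,
      ind (Cov R j w θ0 θ1 β h M ∧ Cov R j w θ0 θ1 β h' M))
      (fun h _ => Finset.sum_nonneg fun _ _ => ind_nonneg _) hh0
  · push Not at hex
    have h1 : ∑ h ∈ H, ind (Cov R j w θ0 θ1 β h M) = 0 :=
      Finset.sum_eq_zero fun h hh => ind_false (hex h hh)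
    rw [h1, add_zero]
    have h2 : rs R j w θ0 θ1 H β M ≤ ind ((R M).2 = β) := by
      unfold rs
      exact ind_mono fun hr => hr.1
    refine h2.trans (le_add_of_nonneg_right ?_)
    exact Finset.sum_nonneg fun _ _ => Finset.sum_nonneg fun _ _ => ind_nonneg _

/-- The total mass. -/
theorem sum_mass_le (R : (Fin k × Fin nA → K l) → K l × ZMod 2) (j : Fin k)
    (w : Fin nA → ZMod 2) (θ0 θ1 : K l)
    {H : ZMod 2 → Finset ((Fin k × Fin nA → ZMod 2) × K l)} {c : ℝ} (hc : 0 < c)
    (hL : IsL R j w θ0 θ1 H c) :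
    (∑ β, avg (rs R j w θ0 θ1 (H β) β)) + Pm1 R j w θ0 θ1 H + Qm1 R j w θ0 θ1 H ≤
      1 + 8 * (1 / c) ^ 2 / 2 ^ l := by
  classical
  have hpow : (0 : ℝ) < 2 ^ l := by positivity
  have h1 : ∀ β, avg (rs R j w θ0 θ1 (H β) β) + ∑ h ∈ H β, mc R j w θ0 θ1 β h ≤
      (avg fun M : Fin k × Fin nA → K l => ind ((R M).2 = β)) +
        (1 / c) ^ 2 * (4 / 2 ^ l) := by
    intro β
    have e1 : (avg fun M : Fin k × Fin nA → K l => rs R j w θ0 θ1 (H β) β M +
        ∑ h ∈ H β, ind (Cov R j w θ0 θ1 β h M)) =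
        avg (rs R j w θ0 θ1 (H β) β) + ∑ h ∈ H β, mc R j w θ0 θ1 β h := by
      rw [avg_add]
      congr 1
      rw [avg_sum]
      rfl
    have e2 : (avg fun M : Fin k × Fin nA → K l => ind ((R M).2 = β) +
        ∑ h ∈ H β, ∑ h' ∈ (H β).erase h,
          ind (Cov R j w θ0 θ1 β h M ∧ Cov R j w θ0 θ1 β h' M)) =
        (avg fun M : Fin k × Fin nA → K l => ind ((R M).2 = β)) +
        ∑ h ∈ H β, ∑ h' ∈ (H β).erase h, avg fun M : Fin k × Fin nA → K l =>
          ind (Cov R j w θ0 θ1 β h M ∧ Cov R j w θ0 θ1 β h' M) := by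
      rw [avg_add]
      congr 1
      rw [avg_sum]
      refine Finset.sum_congr rfl fun h _ => ?_
      rw [avg_sum]
    rw [← e1]
    refine (avg_mono fun M => point_mass_le R j w θ0 θ1 β (H β) M).trans ?_
    rw [e2]
    refine add_le_add le_rfl ?_
    have h2 : ∑ h ∈ H β, ∑ h' ∈ (H β).erase h, (avg fun M : Fin k × Fin nA → K l =>
        ind (Cov R j w θ0 θ1 β h M ∧ Cov R j w θ0 θ1 β h' M)) ≤
        ∑ _h ∈ H β, ((H β).card : ℝ) * (4 / 2 ^ l) := by
      refine Finset.sum_le_sum fun h hh => ?_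
      have h3 : ∑ h' ∈ (H β).erase h, (avg fun M : Fin k × Fin nA → K l =>
          ind (Cov R j w θ0 θ1 β h M ∧ Cov R j w θ0 θ1 β h' M)) ≤
          ∑ _h' ∈ (H β).erase h, (4 / 2 ^ l : ℝ) := by
        refine Finset.sum_le_sum fun h' hh' => ?_
        obtain ⟨hne, hm⟩ := Finset.mem_erase.1 hh'
        exact H620.avg_two_cov' R j w θ0 θ1 β (hL.2.1 β h hh h' hm hne.symm)
      refine h3.trans ?_
      rw [Finset.sum_const, nsmul_eq_mul]
      refine mul_le_mul_of_nonneg_right ?_ (by positivity)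
      exact_mod_cast Finset.card_le_card (Finset.erase_subset h (H β))
    refine h2.trans ?_
    rw [Finset.sum_const, nsmul_eq_mul, ← mul_assoc]
    refine mul_le_mul_of_nonneg_right ?_ (by positivity)
    have h4 : ((H β).card : ℝ) ≤ 1 / c := by
      rw [le_div_iff₀ hc]
      exact hL.1 β
    have h5 : (0 : ℝ) ≤ (H β).card := Nat.cast_nonneg _
    nlinarith
  have h2 : (∑ β, avg (rs R j w θ0 θ1 (H β) β)) + Pm1 R j w θ0 θ1 H + Qm1 R j w θ0 θ1 H =
      ∑ β, (avg (rs R j w θ0 θ1 (H β) β) + ∑ h ∈ H β, mc R j w θ0 θ1 β h) := by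
    unfold Pm1 Qm1
    rw [add_assoc, ← Finset.sum_add_distrib, ← Finset.sum_add_distrib]
    refine Finset.sum_congr rfl fun β _ => ?_
    rw [Finset.sum_filter_add_sum_filter_not]
  rw [h2]
  refine (Finset.sum_le_sum fun β _ => h1 β).trans ?_
  rw [Finset.sum_add_distrib, Finset.sum_const, Finset.card_univ, ZMod.card]
  have h3 : ∑ β : ZMod 2, (avg fun M : Fin k × Fin nA → K l => ind ((R M).2 = β)) = 1 := by
    rw [← avg_sum]
    have : ∀ M : Fin k × Fin nA → K l, ∑ β : ZMod 2, ind ((R M).2 = β) = 1 := by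
      intro M
      unfold ind
      rw [Finset.sum_ite_eq]
      rw [if_pos (Finset.mem_univ _)]
    rw [avg_congr this, avg_const]
  rw [h3]
  refine le_of_eq ?_
  rw [nsmul_eq_mul]
  push_cast
  ring

end Vale.Agent.P339.R2.H206
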